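import Vale.Agent.P181.TR.Defs
import Vale.Agent.P181.TL.H410.T9E

set_option autoImplicit false

/-!
# P181, TR: block R8: a gap of `a ^ 2 / polylog` below one of the first `polylog` rows

Inputs: `CoreR`, the polylog theorem (`PLH`) and few boxes below row two (`FewH`).
-/

namespace Vale.Agent.P181.TR.H410

open Filter
open Vale.Agent.P181.TL (dn2)
open Vale.Agent.P181.TL.H410
open Vale.Agent.P181.TR
open Vale.Agent.P181.SZ (tl)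
open Vale.Agent.P181.H280 (plethMult)

/-- The choice of `Y`. -/
theorem pickY {V : ℝ} (hV : 1 ≤ V) : ∃ Y : ℕ, 1 ≤ Y ∧ 27 * V ^ 3 ≤ (Y : ℝ) ^ 4 ∧
    (Y : ℝ) ^ 4 ≤ 432 * V ^ 3 := by
  have hV3 : 1 ≤ V ^ 3 := one_le_pow₀ hV
  obtain ⟨w, hw⟩ : ∃ w : ℝ, w = (27 * V ^ 3) ^ ((1 : ℝ) / 4) := ⟨_, rfl⟩
  have hw4 : w ^ 4 = 27 * V ^ 3 := by
    rw [hw, ← Real.rpow_natCast, ← Real.rpow_mul (by positivity)]
    norm_num
  have hw1 : 1 ≤ w := by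
    rw [hw]
    exact Real.one_le_rpow (by linarith) (by norm_num)
  refine ⟨⌈w⌉₊, Nat.one_le_ceil_iff.2 (by linarith), ?_, ?_⟩
  · rw [← hw4]
    have := Nat.le_ceil w
    gcongr
  · have h1 : ((⌈w⌉₊ : ℕ) : ℝ) ≤ 2 * w := by
      have := (Nat.ceil_lt_add_one (show 0 ≤ w by linarith)).le
      linarith
    calc ((⌈w⌉₊ : ℕ) : ℝ) ^ 4 ≤ (2 * w) ^ 4 := by gcongr
      _ = 16 * w ^ 4 := by ring
      _ = 432 * V ^ 3 := by rw [hw4]; ring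

theorem ta_le_D2 {k r : ℕ} (hr : 2 ≤ r) (lam : Fin (k + 1 + r + 1) → ℕ) :
    ∑ i, ta (tl lam) i ≤ D2 lam := by
  have he : Function.Injective
      (fun i : Fin (k + 1) => (⟨r + i + 1, by omega⟩ : Fin (k + 1 + r + 1))) := by
    intro i j hij
    have := congrArg Fin.val hij
    simp only at this
    exact Fin.ext (by omega)
  have h1 : ∑ i, ta (tl lam) i = ∑ j ∈ Finset.univ.map ⟨_, he⟩,
      (if 2 ≤ (j : ℕ) then lam j else 0) := by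
    rw [Finset.sum_map]
    refine Finset.sum_congr rfl fun i _ => ?_
    simp only [Function.Embedding.coeFn_mk]
    rw [if_pos (by omega)]
    rfl
  rw [h1]
  exact Finset.sum_le_sum_of_subset (Finset.subset_univ _)

theorem D2_eq_dn2 {k : ℕ} (lam : Fin (k + 2) → ℕ) : D2 lam = dn2 lam := by
  unfold D2 dn2
  rw [Fin.sum_univ_succ, Fin.sum_univ_succ]
  simp

theorem few_of (hF : FewH) {a b n : ℕ} (hn : 2 ≤ n) (lam : Fin n → ℕ) (ha : 2 ≤ a)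
    (h : D2 lam + a ≤ b + 1) : plethMult a b n lam ≤ plethMult b a n lam := by
  obtain ⟨k, rfl⟩ := Nat.exists_eq_add_of_le' hn
  exact hF a b k lam ha (by rw [← D2_eq_dn2]; exact h)

/-- Numbers for the driver. -/
theorem numsE {Q R W : ℝ} (hQ : 5 ≤ Q) (hR : 2 ≤ R) (hW : 1 + R ≤ W) :
    40 * Q ≤ 16 * Q ^ 2 * R * W ∧ 16 * (R + 1) ≤ 16 * Q ^ 2 * R * W ∧
      5 * (R * (R + 1)) ≤ 16 * Q ^ 2 * R * W ∧ Q * W ≤ Q ^ 2 * R * W ∧
      R * (Q ^ 2 + 3 * Q + 8 * (R + 1)) ≤ 16 * Q ^ 2 * R * W := by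
  have hQ2 : 5 * Q ≤ Q ^ 2 := by nlinarith
  have hQ25 : 25 ≤ Q ^ 2 := by linarith
  have hW3 : 3 ≤ W := by linarith
  have hRW : R * (1 + R) ≤ R * W := mul_le_mul_of_nonneg_left hW (by linarith)
  have hR2 : 2 * (1 + R) ≤ R * (1 + R) := mul_le_mul_of_nonneg_right hR (by linarith)
  have hRW6 : 6 ≤ R * W := by linarith
  have hA : 16 * (25 * (R * W)) ≤ 16 * (Q ^ 2 * (R * W)) := by
    have := mul_le_mul_of_nonneg_right hQ25 (show 0 ≤ R * W by linarith)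
    linarith
  have hE : 16 * Q ^ 2 * R * W = 16 * (Q ^ 2 * (R * W)) := by ring
  refine ⟨?_, ?_, ?_, ?_, ?_⟩
  · rw [hE]
    have h1 : (5 * Q) * 6 ≤ Q ^ 2 * (R * W) := mul_le_mul hQ2 hRW6 (by norm_num) (by positivity)
    linarith
  · rw [hE]
    linarith
  · rw [hE]
    have : 0 ≤ R * (1 + R) := by positivity
    linarith
  · have h1 : Q * 1 ≤ Q * (Q * R) := by
      have : 1 ≤ Q * R := by nlinarith
      exact mul_le_mul_of_nonneg_left this (by linarith)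
    calc Q * W = (Q * 1) * W := by ring
      _ ≤ (Q * (Q * R)) * W := mul_le_mul_of_nonneg_right h1 (by linarith)
      _ = Q ^ 2 * R * W := by ring
  · have h1 : Q ^ 2 * 3 ≤ Q ^ 2 * W := mul_le_mul_of_nonneg_left hW3 (by positivity)
    have h2 : 25 * W ≤ Q ^ 2 * W := mul_le_mul_of_nonneg_right hQ25 (by linarith)
    have h3 : Q ^ 2 + 3 * Q + 8 * (R + 1) ≤ 16 * (Q ^ 2 * W) := by linarith
    calc R * (Q ^ 2 + 3 * Q + 8 * (R + 1)) ≤ R * (16 * (Q ^ 2 * W)) :=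
          mul_le_mul_of_nonneg_left h3 (by linarith)
      _ = 16 * Q ^ 2 * R * W := by ring

/-- Numbers for the end. -/
theorem numsV {A P C1 D : ℝ} (hA : 1 ≤ A) (hP : 1 ≤ P) (hC1 : 0 ≤ C1)
    (hD : D ≤ C1 * P * A ^ 2) : 1 ≤ (C1 + 2) * P * A ∧ 2 * A + D ≤ A * ((C1 + 2) * P * A) := by
  have hPA : 1 ≤ P * A := by nlinarith
  have h0 : 0 ≤ C1 * (P * A) := by positivity
  have h1 : A * 1 ≤ A * (P * A) := mul_le_mul_of_nonneg_left hPA (by linarith)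
  constructor
  · linarith
  · have h2 : A * ((C1 + 2) * P * A) = C1 * P * A ^ 2 + 2 * (A * (P * A)) := by ring
    linarith

/-- The driver. -/
theorem driveR (hC : CoreR) {a b k r : ℕ} {lam : Fin (k + 1 + r + 1) → ℕ}
    (hsum : ∑ i, lam i = a * b) (hanti : Antitone lam) (hr2 : 2 ≤ r) (ha : 0 < a)
    (hbt : b ≤ D2 lam + a) (h60 : tl lam 0 + 60 * D2 lam + 17 * a ^ 2 ≤ lam 0)
    {Q R V : ℝ} (hR : 2 ≤ R) (hrR : (r : ℝ) ≤ R)
    (h1 : 5 + 16 * (D2 lam : ℝ) / (a : ℝ) ^ 2 ≤ Q)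
    (h2 : ∀ l : Fin r, 4 * (a : ℝ) ^ 2 ≤ R * ((tp (tl lam) l : ℝ) - ta (tl lam) 0))
    (hV : 1 ≤ V) (hV2 : 2 * (a : ℝ) + D2 lam ≤ a * V)
    (hE : 432 * (16 * Q ^ 2 * R * (8 * Q + Q ^ 2 * R + 1 + R)) ^ 4 * V ^ 3 ≤ (a : ℝ) ^ 4) :
    plethMult a b (k + 1 + r + 1) lam ≤ plethMult b a (k + 1 + r + 1) lam := by
  obtain ⟨t, ht⟩ : ∃ t, t = ∑ i, ta (tl lam) i := ⟨_, rfl⟩
  have htD : t ≤ D2 lam := by rw [ht]; exact ta_le_D2 hr2 lam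
  have htD' : (t : ℝ) ≤ D2 lam := by exact_mod_cast htD
  have ha0 : (0 : ℝ) < a := by exact_mod_cast ha
  have ha2 : (0 : ℝ) < (a : ℝ) ^ 2 := by positivity
  obtain ⟨q, hq⟩ : ∃ q, q = 5 + 16 * t / a ^ 2 := ⟨_, rfl⟩
  have hqQ : (q : ℝ) ≤ Q := by
    refine le_trans ?_ h1
    rw [hq, Nat.cast_add]
    have h3 := @Nat.cast_div_le ℝ _ _ _ (16 * t) (a ^ 2)
    push_cast at h3 ⊢
    have h4 : 16 * (t : ℝ) / (a : ℝ) ^ 2 ≤ 16 * (D2 lam : ℝ) / (a : ℝ) ^ 2 := by gcongr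
    linarith
  have hq5 : 5 ≤ q := by rw [hq]; exact Nat.le_add_right _ _
  have hqa : q * a ^ 2 ≤ 5 * a ^ 2 + 16 * t := by
    rw [hq, add_mul]
    have := Nat.div_mul_le_self (16 * t) (a ^ 2)
    omega
  have hq0 : (5 : ℝ) ≤ q := by exact_mod_cast hq5
  have hQ5 : (5 : ℝ) ≤ Q := hq0.trans hqQ
  have hq2 : (q : ℝ) ^ 2 ≤ Q ^ 2 := pow_le_pow_left₀ (by linarith) hqQ 2
  have hR0 : 0 < R := by linarith
  have hQR : 0 ≤ Q ^ 2 * R := by positivity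
  obtain ⟨m, hm⟩ : ∃ m, m = 8 * q + ⌈Q ^ 2 * R⌉₊ := ⟨_, rfl⟩
  have hm1 : Q ^ 2 * R ≤ m := by
    rw [hm]
    push_cast
    have := Nat.le_ceil (Q ^ 2 * R)
    linarith
  have hm2 : (m : ℝ) ≤ 8 * Q + Q ^ 2 * R + 1 := by
    rw [hm]
    push_cast
    have := (Nat.ceil_lt_add_one hQR).le
    linarith
  have hm0 : 0 < m := by omega
  have hmR : (0 : ℝ) < m := by exact_mod_cast hm0
  have hr0 : (0 : ℝ) ≤ r := Nat.cast_nonneg _
  obtain ⟨Y, hY1, hY2, hY3⟩ := pickY hV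
  have hY0 : (1 : ℝ) ≤ Y := by exact_mod_cast hY1
  obtain ⟨W, hW⟩ : ∃ W, W = 8 * Q + Q ^ 2 * R + 1 + R := ⟨_, rfl⟩
  rw [← hW] at hE
  have hmW : (m : ℝ) + r ≤ W := by rw [hW]; linarith
  have hW1 : 1 + R ≤ W := by rw [hW]; linarith
  have hW0 : 0 < W := by linarith
  obtain ⟨E, hEe⟩ : ∃ E, E = 16 * Q ^ 2 * R * W := ⟨_, rfl⟩
  rw [← hEe] at hE
  have hE0 : 0 < E := by rw [hEe]; positivity
  -- `E Y ≤ a`
  have hEY : E * Y ≤ a := by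
    have h3 : (E * Y) ^ 4 ≤ (a : ℝ) ^ 4 := by
      calc (E * Y) ^ 4 = E ^ 4 * (Y : ℝ) ^ 4 := by ring
        _ ≤ E ^ 4 * (432 * V ^ 3) := by gcongr
        _ = 432 * E ^ 4 * V ^ 3 := by ring
        _ ≤ (a : ℝ) ^ 4 := hE
    exact (pow_le_pow_iff_left₀ (by positivity) (by positivity) (by norm_num)).1 h3
  have hEa : E ≤ a := by
    refine le_trans ?_ hEY
    have := mul_le_mul_of_nonneg_left hY0 hE0.le
    linarith
  -- consequences of `E ≤ a`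
  obtain ⟨hn1, hn2, hn3, hn4, hn5⟩ := numsE hQ5 hR hW1
  rw [← hEe] at hn1 hn2 hn3 hn5
  have hE3 : 40 * Q ≤ a := hn1.trans hEa
  have hc1 : 16 * (r + 1) ≤ a := by
    have : 16 * ((r : ℝ) + 1) ≤ a := by linarith
    exact_mod_cast this
  have hc2 : 5 * (r * (r + 1)) ≤ a := by
    have h3 : (r : ℝ) * (r + 1) ≤ R * (R + 1) := by gcongr
    have : 5 * ((r : ℝ) * (r + 1)) ≤ a := by linarith
    exact_mod_cast this
  have hc3 : 16 * (q * Y * (m + r)) ≤ a := by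
    have : 16 * ((q : ℝ) * Y * (m + r)) ≤ a := by
      refine le_trans ?_ hEY
      have h3 : (q : ℝ) * (m + r) ≤ Q * W := by gcongr
      calc 16 * ((q : ℝ) * Y * (m + r)) = 16 * ((q : ℝ) * (m + r)) * Y := by ring
        _ ≤ 16 * (Q ^ 2 * R * W) * Y := by
            have := h3.trans hn4
            gcongr
        _ = E * Y := by rw [hEe]; ring
    exact_mod_cast this
  -- the gap
  obtain ⟨x, hx⟩ : ∃ x, x = q ^ 2 * a * (a / m) := ⟨_, rfl⟩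
  have hxR : R * (x : ℝ) ≤ (a : ℝ) ^ 2 := by
    have hdiv : ((a / m : ℕ) : ℝ) ≤ (a : ℝ) / m := Nat.cast_div_le
    have h6 : (x : ℝ) ≤ (q : ℝ) ^ 2 * a * (a / m) := by
      rw [hx]
      push_cast
      gcongr
    have h7 : R * (x : ℝ) * m ≤ (a : ℝ) ^ 2 * m := by
      calc R * (x : ℝ) * m ≤ R * ((q : ℝ) ^ 2 * a * (a / m)) * m := by gcongr
        _ = R * (q : ℝ) ^ 2 * (a : ℝ) ^ 2 := by field_simp
        _ ≤ R * Q ^ 2 * (a : ℝ) ^ 2 := by gcongr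
        _ = (Q ^ 2 * R) * (a : ℝ) ^ 2 := by ring
        _ ≤ m * (a : ℝ) ^ 2 := by gcongr
        _ = (a : ℝ) ^ 2 * m := by ring
    exact le_of_mul_le_mul_right h7 hmR
  obtain ⟨y, hy⟩ : ∃ y, y = q ^ 2 * Y * (m + r) * a := ⟨_, rfl⟩
  have hyR : R * (y : ℝ) ≤ (a : ℝ) ^ 2 := by
    have h3 : (q : ℝ) ^ 2 * (m + r) ≤ Q ^ 2 * W := by gcongr
    have h4 : R * ((q : ℝ) ^ 2 * (m + r)) * Y ≤ E * Y := by
      have h5 : R * ((q : ℝ) ^ 2 * (m + r)) ≤ E := by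
        calc R * ((q : ℝ) ^ 2 * (m + r)) ≤ R * (Q ^ 2 * W) := by gcongr
          _ ≤ 16 * (R * (Q ^ 2 * W)) := by
              have : 0 ≤ R * (Q ^ 2 * W) := by positivity
              linarith
          _ = E := by rw [hEe]; ring
      gcongr
    calc R * (y : ℝ) = R * ((q : ℝ) ^ 2 * (m + r)) * Y * a := by
          rw [hy]
          push_cast
          ring
      _ ≤ E * Y * a := by gcongr
      _ ≤ (a : ℝ) * a := by gcongr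
      _ = (a : ℝ) ^ 2 := by ring
  obtain ⟨z, hz⟩ : ∃ z, z = (q ^ 2 + 3 * q + 8 * (r + 1)) * a := ⟨_, rfl⟩
  have hzR : R * (z : ℝ) ≤ (a : ℝ) ^ 2 := by
    have h3 : R * ((q : ℝ) ^ 2 + 3 * q + 8 * (r + 1)) ≤ a := by
      refine le_trans ?_ (hn5.trans hEa)
      gcongr
    calc R * (z : ℝ) = R * ((q : ℝ) ^ 2 + 3 * q + 8 * (r + 1)) * a := by
          rw [hz]
          push_cast
          ring
      _ ≤ (a : ℝ) * a := by gcongr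
      _ = (a : ℝ) ^ 2 := by ring
  obtain ⟨G, hG⟩ : ∃ G, G = y + x + z := ⟨_, rfl⟩
  have hGl : ∀ l : Fin r, G + ta (tl lam) 0 ≤ tp (tl lam) l := by
    intro l
    have h8 : R * (G : ℝ) ≤ R * ((tp (tl lam) l : ℝ) - ta (tl lam) 0) := by
      refine le_trans ?_ (h2 l)
      rw [hG]
      push_cast
      linarith
    have h10 := le_of_mul_le_mul_left h8 hR0
    have : ((G + ta (tl lam) 0 : ℕ) : ℝ) ≤ ((tp (tl lam) l : ℕ) : ℝ) := by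
      push_cast
      linarith
    exact_mod_cast this
  have hG2 : G = q * a * (q * Y * (m + r) + q * (a / m) + q + 3) + 8 * (r + 1) * a := by
    rw [hG, hy, hx, hz]
    ring
  refine hC a b k r q m Y t G lam hsum hanti hr2 hc1 ht hq (by omega) ?_ hY1 hc3 hG2 hGl hbt
    ?_ ?_
  · have : ((40 * q : ℕ) : ℝ) ≤ (a : ℝ) := by
      push_cast
      linarith
    exact_mod_cast this
  · have : 27 * (2 * (a : ℝ) + D2 lam) ^ 3 ≤ (a : ℝ) ^ 3 * (Y : ℝ) ^ 4 := by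
      calc 27 * (2 * (a : ℝ) + D2 lam) ^ 3 ≤ 27 * (a * V) ^ 3 := by gcongr
        _ = (a : ℝ) ^ 3 * (27 * V ^ 3) := by ring
        _ ≤ (a : ℝ) ^ 3 * (Y : ℝ) ^ 4 := by gcongr
    exact_mod_cast this
  · have h14 : 3 * q * a ^ 2 = 3 * (q * a ^ 2) := by ring
    have h15 : 5 * a * r * (r + 1) ≤ a ^ 2 := by
      calc 5 * a * r * (r + 1) = a * (5 * (r * (r + 1))) := by ring
        _ ≤ a * a := Nat.mul_le_mul_left _ hc2
        _ = a ^ 2 := by ring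
    rw [h14]
    omega

/-- **(R8)** -/
theorem twoLongR_of (hE : CoreR) (hPL : PLH) (hF : FewH) : TwoLongR := by
  intro C₀ c₀ hC₀ hc₀
  obtain ⟨C', c', hP⟩ := hPL
  obtain ⟨C1, hC1, hC1'⟩ : ∃ C1 : ℝ, 0 ≤ C1 ∧ C' ≤ C1 := ⟨|C'|, abs_nonneg _, le_abs_self _⟩
  obtain ⟨e, hee1, hee2⟩ : ∃ e : ℕ, c' ≤ e ∧ c₀ ≤ e :=
    ⟨c' + ⌈c₀⌉₊, Nat.le_add_right _ _, (Nat.le_ceil c₀).trans (by
      push_cast
      linarith [(Nat.cast_nonneg c' : (0 : ℝ) ≤ c')])⟩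
  obtain ⟨Q0, hQ0⟩ : ∃ Q0, Q0 = 5 + C1 := ⟨_, rfl⟩
  have hQ1 : 0 < Q0 := by rw [hQ0]; positivity
  obtain ⟨M1, hM1⟩ : ∃ M1, M1 = 8 * Q0 + 4 * Q0 ^ 2 * (C₀ + 1) + 1 + 4 * (C₀ + 1) := ⟨_, rfl⟩
  have hM1' : 0 < M1 := by rw [hM1]; positivity
  obtain ⟨E0, hE0⟩ : ∃ E0, E0 = 64 * Q0 ^ 2 * (C₀ + 1) * M1 := ⟨_, rfl⟩
  have hE0' : 0 < E0 := by rw [hE0]; positivity
  obtain ⟨K0, hK0⟩ : ∃ K0, K0 = 432 * E0 ^ 4 * (C1 + 2) ^ 3 + 2 := ⟨_, rfl⟩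
  obtain ⟨a₀, ha₀⟩ := ev_log K0 (e * 27)
  obtain ⟨C, hC⟩ : ∃ C, C = C1 * a₀ + 1 := ⟨_, rfl⟩
  have hCpos : 0 < C := by rw [hC]; positivity
  refine ⟨C, ((e + 1 : ℕ) : ℝ), hCpos, by positivity, ?_⟩
  intro a b k r lam hanti hsum ha hr2 hr hlam ht h60
  rw [Real.rpow_natCast] at ht
  have hL := one_le_L a
  obtain ⟨L, hLe⟩ : ∃ L, L = 1 + Real.log a := ⟨_, rfl⟩
  rw [← hLe] at hL hlam ht hr
  have hP1 := hP a b
  have ha1 := ha₀ a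
  rw [← hLe] at hP1 ha1
  rw [pow_mul] at ha1
  obtain ⟨P, hPe⟩ : ∃ P, P = L ^ e := ⟨_, rfl⟩
  rw [← hPe] at ha1
  have hP0 : 1 ≤ P := by rw [hPe]; exact one_le_pow₀ hL
  have hLP : L ^ c' ≤ P := by rw [hPe]; exact pow_le_pow_right₀ hL hee1
  have hLP2 : L ^ c₀ ≤ P := by
    rw [hPe, ← Real.rpow_natCast]
    exact Real.rpow_le_rpow_of_exponent_le hL hee2
  have hLP3 : P ≤ L ^ (e + 1) := by
    rw [hPe]
    exact pow_le_pow_right₀ hL (Nat.le_succ _)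
  have haR : (1 : ℝ) ≤ a := by exact_mod_cast ha
  have hbR : (0 : ℝ) ≤ b := Nat.cast_nonneg b
  have ht0 : (0 : ℝ) ≤ D2 lam := Nat.cast_nonneg _
  have ht1 : C * P * a ≤ D2 lam := by
    refine le_trans ?_ ht
    gcongr
  have ht2 : 60 * (D2 lam : ℝ) ≤ a * b := by
    have h : lam 0 ≤ ∑ i, lam i := Finset.single_le_sum (fun _ _ => Nat.zero_le _)
      (Finset.mem_univ 0)
    have : 60 * D2 lam ≤ a * b := by omega
    exact_mod_cast this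
  -- the polylog theorem
  by_cases hb : C1 * a * P ≤ b
  · refine hP1 ?_ _ _
    refine le_trans ?_ hb
    have : 0 ≤ L ^ c' := by positivity
    calc C' * a * L ^ c' ≤ C1 * a * L ^ c' := by gcongr
      _ ≤ C1 * a * P := by gcongr
  push Not at hb
  -- small `a`
  have haa : a₀ < a := by
    by_contra hcon
    push Not at hcon
    have hcon' : (a : ℝ) ≤ a₀ := by exact_mod_cast hcon
    have h2 : 60 * (C * P) ≤ b := by
      have h3 : (a : ℝ) * (60 * (C * P)) ≤ a * b := by linarith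
      exact le_of_mul_le_mul_left h3 (by linarith)
    have h3 : C1 * a * P ≤ C * P := by
      have h5 : C1 * a ≤ C := by
        have h6 : C1 * a ≤ C1 * a₀ := by gcongr
        rw [hC]
        linarith
      gcongr
    have h9 : 0 ≤ C * P := by positivity
    linarith
  have hQa : K0 * P ^ 27 ≤ a := ha1 haa.le
  have hP27 : 1 ≤ P ^ 27 := one_le_pow₀ hP0
  have hpA : 0 ≤ 432 * E0 ^ 4 * (C1 + 2) ^ 3 * P ^ 27 := by positivity
  have hsplit : K0 * P ^ 27 = 432 * E0 ^ 4 * (C1 + 2) ^ 3 * P ^ 27 + 2 * P ^ 27 := by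
    rw [hK0]
    ring
  have hQa1 : 432 * E0 ^ 4 * (C1 + 2) ^ 3 * P ^ 27 ≤ a := by linarith
  have ha2 : 2 ≤ a := by
    have h5 : (2 : ℝ) ≤ a := by linarith
    exact_mod_cast h5
  by_cases hfew : D2 lam + a ≤ b + 1
  · exact few_of hF (by omega) lam ha2 hfew
  have ha3 : (0 : ℝ) < (a : ℝ) ^ 2 := by positivity
  have hpos : ∀ l : Fin r, 0 < (tp (tl lam) l : ℝ) - ta (tl lam) 0 := by
    intro l
    by_contra hcon
    push Not at hcon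
    have h1 : 0 ≤ C₀ * L ^ c₀ := by positivity
    have h2 := mul_nonpos_of_nonneg_of_nonpos h1 hcon
    have h3 := hlam l
    linarith
  have ht3 : (D2 lam : ℝ) ≤ C1 * P * (a : ℝ) ^ 2 := by
    have h2 : (a : ℝ) * b ≤ a * (C1 * a * P) := by gcongr
    calc (D2 lam : ℝ) ≤ a * b := by linarith
      _ ≤ a * (C1 * a * P) := h2
      _ = C1 * P * (a : ℝ) ^ 2 := by ring
  obtain ⟨hv1, hv2⟩ := numsV haR hP0 hC1 ht3
  refine driveR hE hsum hanti hr2 ha (by omega) h60 (Q := Q0 * P) (R := 4 * (C₀ + 1) * P)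
    (V := (C1 + 2) * P * a) ?_ ?_ ?_ ?_ ?_ ?_ ?_
  · have : (1 : ℝ) * 1 ≤ (C₀ + 1) * P := by
      have h3 : (1 : ℝ) ≤ C₀ + 1 := by linarith
      gcongr
    linarith
  · have h1 : C₀ * L ^ c₀ ≤ C₀ * P := by gcongr
    have h2 : 0 ≤ C₀ * P := by positivity
    linarith
  · have h1 : 16 * (D2 lam : ℝ) / (a : ℝ) ^ 2 ≤ C1 * P := by
      rw [div_le_iff₀ ha3]
      have h2 : (a : ℝ) * b ≤ a * (C1 * a * P) := by gcongr
      calc 16 * (D2 lam : ℝ) ≤ a * b := by linarith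
        _ ≤ a * (C1 * a * P) := h2
        _ = C1 * P * (a : ℝ) ^ 2 := by ring
    rw [hQ0]
    linarith
  · intro l
    have h0 := hpos l
    have h1 : (a : ℝ) ^ 2 ≤ C₀ * P * ((tp (tl lam) l : ℝ) - ta (tl lam) 0) := by
      refine (hlam l).trans ?_
      gcongr
    have h2 : 0 ≤ P * ((tp (tl lam) l : ℝ) - ta (tl lam) 0) := by positivity
    linarith
  · exact hv1
  · exact hv2
  · have hW : 8 * (Q0 * P) + (Q0 * P) ^ 2 * (4 * (C₀ + 1) * P) + 1 + 4 * (C₀ + 1) * P ≤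
        M1 * P ^ 3 := by
      have h2 : P ≤ P ^ 3 := le_self_pow₀ hP0 (by norm_num)
      have h3 : 1 ≤ P ^ 3 := one_le_pow₀ hP0
      have h5 : 8 * Q0 * P ≤ 8 * Q0 * P ^ 3 := by gcongr
      have h6 : 4 * (C₀ + 1) * P ≤ 4 * (C₀ + 1) * P ^ 3 := by gcongr
      rw [hM1]
      calc 8 * (Q0 * P) + (Q0 * P) ^ 2 * (4 * (C₀ + 1) * P) + 1 + 4 * (C₀ + 1) * P
          = 8 * Q0 * P + 4 * Q0 ^ 2 * (C₀ + 1) * P ^ 3 + 1 + 4 * (C₀ + 1) * P := by ring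
        _ ≤ 8 * Q0 * P ^ 3 + 4 * Q0 ^ 2 * (C₀ + 1) * P ^ 3 + P ^ 3 + 4 * (C₀ + 1) * P ^ 3 := by
            linarith
        _ = (8 * Q0 + 4 * Q0 ^ 2 * (C₀ + 1) + 1 + 4 * (C₀ + 1)) * P ^ 3 := by ring
    have hE1 : 16 * (Q0 * P) ^ 2 * (4 * (C₀ + 1) * P) *
        (8 * (Q0 * P) + (Q0 * P) ^ 2 * (4 * (C₀ + 1) * P) + 1 + 4 * (C₀ + 1) * P) ≤
        E0 * P ^ 6 := by
      calc 16 * (Q0 * P) ^ 2 * (4 * (C₀ + 1) * P) *
            (8 * (Q0 * P) + (Q0 * P) ^ 2 * (4 * (C₀ + 1) * P) + 1 + 4 * (C₀ + 1) * P)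
          ≤ 16 * (Q0 * P) ^ 2 * (4 * (C₀ + 1) * P) * (M1 * P ^ 3) := by gcongr
        _ = E0 * P ^ 6 := by rw [hE0]; ring
    have hE2 : 0 ≤ 16 * (Q0 * P) ^ 2 * (4 * (C₀ + 1) * P) *
        (8 * (Q0 * P) + (Q0 * P) ^ 2 * (4 * (C₀ + 1) * P) + 1 + 4 * (C₀ + 1) * P) := by
      positivity
    calc 432 * (16 * (Q0 * P) ^ 2 * (4 * (C₀ + 1) * P) *
          (8 * (Q0 * P) + (Q0 * P) ^ 2 * (4 * (C₀ + 1) * P) + 1 + 4 * (C₀ + 1) * P)) ^ 4 *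
          ((C1 + 2) * P * a) ^ 3
        ≤ 432 * (E0 * P ^ 6) ^ 4 * ((C1 + 2) * P * a) ^ 3 := by gcongr
      _ = (432 * E0 ^ 4 * (C1 + 2) ^ 3 * P ^ 27) * (a : ℝ) ^ 3 := by ring
      _ ≤ (a : ℝ) * (a : ℝ) ^ 3 := by gcongr
      _ = (a : ℝ) ^ 4 := by ring

end Vale.Agent.P181.TR.H410
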